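import Vale.Agent.P032.Net.D3

/-!
# P032: the rhombus network, general form

`WebO P Q`: the network of the clean ends, where the one-circle fact (L3) is replaced by its only
consequence which is used, `oneP`, `oneQ`: at a vertex with three neighbours at most one centre
has a single end.
-/

namespace Vale.Agent.P032.Net

/-- `P z v`: `v` is a clean `T`-end of `S(z)`; `Q z q`: `q` is a clean `Tᶜ`-end of `S(z)`. -/
structure WebO (P Q : ℂ → ℂ → Prop) : Prop where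
  rh : ∀ {z v q : ℂ}, P z v → Q z q → v + q ≠ 2 * z ∧ P (v + q - z) v ∧ Q (v + q - z) q
  threeP : ∀ {v a b c d : ℂ}, P a v → P b v → P c v → P d v → a ≠ b → a ≠ c → b ≠ c →
    d = a ∨ d = b ∨ d = c
  threeQ : ∀ {v a b c d : ℂ}, Q a v → Q b v → Q c v → Q d v → a ≠ b → a ≠ c → b ≠ c →
    d = a ∨ d = b ∨ d = c
  sep : ∀ {z v v' q q' : ℂ}, P z v → P z v' → Q z q → Q z q' →
    0 < det (v - z) (q - z) * det (v - z) (q' - z) *
      (det (v' - z) (q - z) * det (v' - z) (q' - z))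
  L2 : ∀ {z v q : ℂ}, P z v → Q z q → (∀ v', P z v' → v' = v) → (∀ q', Q z q' → q' = q) → False
  oneP : ∀ {v c₁ c₂ c₃ : ℂ}, P c₁ v → P c₂ v → P c₃ v → c₁ ≠ c₂ → c₁ ≠ c₃ → c₂ ≠ c₃ →
    Q c₁ (c₁ + c₂ - v) → Q c₁ (c₁ + c₃ - v) → Q c₂ (c₂ + c₃ - v) →
    (∀ v', P c₁ v' → v' = v) → (∀ v', P c₂ v' → v' = v) → False
  oneQ : ∀ {v c₁ c₂ c₃ : ℂ}, Q c₁ v → Q c₂ v → Q c₃ v → c₁ ≠ c₂ → c₁ ≠ c₃ → c₂ ≠ c₃ →
    P c₁ (c₁ + c₂ - v) → P c₁ (c₁ + c₃ - v) → P c₂ (c₂ + c₃ - v) →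
    (∀ v', Q c₁ v' → v' = v) → (∀ v', Q c₂ v' → v' = v) → False

variable {P Q : ℂ → ℂ → Prop}

/-- exchange of the two types -/
theorem WebO.swap (h : WebO P Q) : WebO Q P where
  rh {z v q} h1 h2 := by
    obtain ⟨a, b, c⟩ := h.rh h2 h1
    rw [add_comm q v] at a b c
    exact ⟨a, c, b⟩
  threeP := h.threeQ
  threeQ := h.threeP
  sep {z v v' q q'} h1 h2 h3 h4 := by
    have h5 := h.sep h3 h4 h1 h2
    have e : det (v - z) (q - z) * det (v - z) (q' - z) *
        (det (v' - z) (q - z) * det (v' - z) (q' - z)) =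
        det (q - z) (v - z) * det (q - z) (v' - z) *
          (det (q' - z) (v - z) * det (q' - z) (v' - z)) := by
      simp only [det]; ring
    rw [e]; exact h5
  L2 h1 h2 h3 h4 := h.L2 h2 h1 h4 h3
  oneP := h.oneQ
  oneQ := h.oneP

/-- the second ends of two centres of an edge are parallel -/
theorem WebO.par (h : WebO P Q) {v c₁ c₂ x y : ℂ} (h1 : P c₁ v) (h2 : P c₂ v) (h12 : c₁ ≠ c₂)
    (hq : Q c₁ (c₁ + c₂ - v)) (hx : P c₁ x) (hxv : x ≠ v) (hy : P c₂ y) (hyv : y ≠ v) :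
    x - c₁ = y - c₂ := by
  have e2 : v + (c₁ + c₂ - v) - c₁ = c₂ := by ring
  have hq2 : Q c₂ (c₁ + c₂ - v) := by
    have := (h.rh h1 hq).2.2
    rwa [e2] at this
  obtain ⟨a1, a2, a3⟩ := h.rh hx hq
  obtain ⟨b1, b2, b3⟩ := h.rh hy hq2
  have hr1 : c₁ ≠ x + (c₁ + c₂ - v) - c₁ := by
    intro hc
    apply a1
    linear_combination -hc
  have hr2 : c₂ ≠ x + (c₁ + c₂ - v) - c₁ := by
    intro hc
    apply hxv
    linear_combination -hc
  rcases h.threeQ hq hq2 a3 b3 h12 hr1 hr2 with hc | hc | hc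
  · exact absurd (by linear_combination hc) hyv
  · exact absurd (by linear_combination hc) b1
  · linear_combination -hc

/-- the second ends of the two types of one centre are ends of the neighbouring centres -/
theorem WebO.cases_q (h : WebO P Q) {v c₁ c₂ c₃ s : ℂ} (h1 : P c₁ v) (h2 : P c₂ v) (h3 : P c₃ v)
    (h12 : c₁ ≠ c₂) (h13 : c₁ ≠ c₃) (h23 : c₂ ≠ c₃) (hs : Q c₁ s) :
    s = c₁ + c₂ - v ∨ s = c₁ + c₃ - v := by
  obtain ⟨a1, a2, a3⟩ := h.rh h1 hs
  rcases h.threeP h1 h2 h3 a2 h12 h13 h23 with hc | hc | hc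
  · exact absurd (by linear_combination hc) a1
  · left; linear_combination hc
  · right; linear_combination hc

theorem WebO.q_ne (h : WebO P Q) {v c₁ c₂ c₃ : ℂ} (h23 : c₂ ≠ c₃) : c₁ + c₂ - v ≠ c₁ + c₃ - v := by
  intro hc
  apply h23
  linear_combination hc

/-- two centres of a full vertex with two ends each: the third one has two ends as well or there is
a contradiction -/
theorem WebO.two_two (h : WebO P Q) {v c₁ c₂ c₃ : ℂ} (h1 : P c₁ v) (h2 : P c₂ v) (h3 : P c₃ v)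
    (h12 : c₁ ≠ c₂) (h13 : c₁ ≠ c₃) (h23 : c₂ ≠ c₃)
    (q12 : Q c₁ (c₁ + c₂ - v)) (q13 : Q c₁ (c₁ + c₃ - v)) (q23 : Q c₂ (c₂ + c₃ - v))
    {n : ℂ} (hn1 : P c₁ (c₁ + n)) (hn1v : c₁ + n ≠ v) (hn2 : P c₂ (c₂ + n)) (hn2v : c₂ + n ≠ v) :
    False := by
  have q21 : Q c₂ (c₁ + c₂ - v) := by
    have := (h.rh h1 q12).2.2
    have e2 : v + (c₁ + c₂ - v) - c₁ = c₂ := by ring
    rwa [e2] at this
  have q31 : Q c₃ (c₁ + c₃ - v) := by
    have := (h.rh h1 q13).2.2
    have e2 : v + (c₁ + c₃ - v) - c₁ = c₃ := by ring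
    rwa [e2] at this
  have q32 : Q c₃ (c₂ + c₃ - v) := by
    have := (h.rh h2 q23).2.2
    have e2 : v + (c₂ + c₃ - v) - c₂ = c₃ := by ring
    rwa [e2] at this
  -- separation at `c₁`, `c₂`
  have s1 : Sp (c₁ - v) n (c₂ - v) (c₃ - v) := by
    have := h.sep h1 hn1 q12 q13
    have e1 : c₁ + c₂ - v - c₁ = c₂ - v := by ring
    have e2 : c₁ + c₃ - v - c₁ = c₃ - v := by ring
    have e3 : v - c₁ = -(c₁ - v) := by ring
    have e4 : c₁ + n - c₁ = n := by ring
    rw [e1, e2, e3, e4] at this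
    exact Sp.neg1 this
  have s2 : Sp (c₂ - v) n (c₁ - v) (c₃ - v) := by
    have := h.sep h2 hn2 q21 q23
    have e1 : c₁ + c₂ - v - c₂ = c₁ - v := by ring
    have e2 : c₂ + c₃ - v - c₂ = c₃ - v := by ring
    have e3 : v - c₂ = -(c₂ - v) := by ring
    have e4 : c₂ + n - c₂ = n := by ring
    rw [e1, e2, e3, e4] at this
    exact Sp.neg1 this
  by_cases o3 : ∀ v', P c₃ v' → v' = v
  · -- the centres `r₁₂`, `r₁₃`
    obtain ⟨a1, a2, a3⟩ := h.rh hn1 q12
    obtain ⟨b1, b2, b3⟩ := h.rh hn1 q13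
    obtain ⟨d1, d2, d3⟩ := h.rh hn2 q21
    have er12 : c₁ + n + (c₁ + c₂ - v) - c₁ = c₁ + c₂ - v + n := by ring
    have er13 : c₁ + n + (c₁ + c₃ - v) - c₁ = c₁ + c₃ - v + n := by ring
    have er21 : c₂ + n + (c₁ + c₂ - v) - c₂ = c₁ + c₂ - v + n := by ring
    rw [er12] at a2 a3
    rw [er13] at b2 b3
    rw [er21] at d2 d3
    -- `r₁₃` is different from `c₁` and `c₃`
    have r1 : c₁ ≠ c₁ + c₃ - v + n := by
      intro hc; apply b1; linear_combination -hc
    have r3 : c₃ ≠ c₁ + c₃ - v + n := by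
      intro hc; apply hn1v; linear_combination -hc
    -- only one `P`-end on `r₁₃`
    have o13 : ∀ x, P (c₁ + c₃ - v + n) x → x = c₁ + n := by
      intro x hx
      obtain ⟨f1, f2, f3⟩ := h.rh hx b3
      rcases h.threeQ q13 q31 b3 f3 h13 r1 r3 with hc | hc | hc
      · linear_combination hc
      · exfalso
        rw [hc] at f2
        have hxe : x = c₃ + n := by linear_combination hc
        have := o3 x f2
        -- then `x = v`, `n = v - c₃`, `r₁₃ = c₁`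
        apply r1
        linear_combination -this + hxe
      · exact absurd (by linear_combination hc) f1
    -- the second `Q`-end of `r₁₃`
    have hL2 : ¬ ∀ s, Q (c₁ + c₃ - v + n) s → s = c₁ + c₃ - v := fun hall => h.L2 b2 b3 o13 hall
    push Not at hL2
    obtain ⟨s, hs, hsne⟩ := hL2
    obtain ⟨g1, g2, g3⟩ := h.rh b2 hs
    have t1 : c₁ ≠ c₁ + c₂ - v + n := by
      intro hc; apply a1; linear_combination -hc
    have t2 : c₁ + c₂ - v + n ≠ c₁ + c₃ - v + n := by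
      intro hc; apply h23; linear_combination hc
    rcases h.threeP hn1 a2 b2 g2 t1 r1 t2 with hc | hc | hc
    · exact hsne (by linear_combination hc)
    · -- `s = v + u₁ + u₂ + u₃ + n`
      rw [hc] at g3
      have s3 := h.sep a2 d2 d3 g3
      have e1 : c₁ + n - (c₁ + c₂ - v + n) = -(c₂ - v) := by ring
      have e2 : c₂ + n - (c₁ + c₂ - v + n) = -(c₁ - v) := by ring
      have e3 : c₁ + c₂ - v - (c₁ + c₂ - v + n) = -n := by ring
      have e4 : s - (c₁ + c₂ - v + n) = c₃ - v := by linear_combination hc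
      rw [e1, e2, e3, e4] at s3
      have s3' : Sp (c₂ - v) (c₁ - v) n (c₃ - v) := (Sp.neg1 (Sp.neg2 (Sp.neg3 s3)))
      -- the three pairings of `n, u₁, u₂, u₃`
      refine three_pairings (a := n) (b := c₁ - v) (c := c₂ - v) (d := c₃ - v) s1.comm s2.comm ?_
      exact s3'.swap.comm'
    · exact absurd (by linear_combination hc) g1
  · push Not at o3
    obtain ⟨x, hx, hxv⟩ := o3
    have e := h.par h1 h3 h13 q13 hn1 hn1v hx hxv
    have hxe : x = c₃ + n := by linear_combination -e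
    subst hxe
    have s3 : Sp (c₃ - v) n (c₁ - v) (c₂ - v) := by
      have := h.sep h3 hx q31 q32
      have e1 : c₁ + c₃ - v - c₃ = c₁ - v := by ring
      have e2 : c₂ + c₃ - v - c₃ = c₂ - v := by ring
      have e3 : v - c₃ = -(c₃ - v) := by ring
      have e4 : c₃ + n - c₃ = n := by ring
      rw [e1, e2, e3, e4] at this
      exact Sp.neg1 this
    exact three_pairings s1.comm s2.comm s3.comm

/-- **D3**: no vertex with three neighbours. -/
theorem WebO.d3 (h : WebO P Q) {v c₁ c₂ c₃ : ℂ} (h1 : P c₁ v) (h2 : P c₂ v) (h3 : P c₃ v)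
    (h12 : c₁ ≠ c₂) (h13 : c₁ ≠ c₃) (h23 : c₂ ≠ c₃)
    (q12 : Q c₁ (c₁ + c₂ - v)) (q13 : Q c₁ (c₁ + c₃ - v)) (q23 : Q c₂ (c₂ + c₃ - v)) : False := by
  have q21 : Q c₂ (c₂ + c₁ - v) := by
    have := (h.rh h1 q12).2.2
    have e2 : v + (c₁ + c₂ - v) - c₁ = c₂ := by ring
    rw [e2] at this
    rwa [add_comm c₂ c₁]
  have q31 : Q c₃ (c₃ + c₁ - v) := by
    have := (h.rh h1 q13).2.2
    have e2 : v + (c₁ + c₃ - v) - c₁ = c₃ := by ring
    rw [e2] at this
    rwa [add_comm c₃ c₁]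
  have q32 : Q c₃ (c₃ + c₂ - v) := by
    have := (h.rh h2 q23).2.2
    have e2 : v + (c₂ + c₃ - v) - c₂ = c₃ := by ring
    rw [e2] at this
    rwa [add_comm c₃ c₂]
  -- two centres with second ends
  have key : ∀ {a b c : ℂ}, P a v → P b v → P c v → a ≠ b → a ≠ c → b ≠ c →
      Q a (a + b - v) → Q a (a + c - v) → Q b (b + c - v) →
      (¬ ∀ v', P a v' → v' = v) → (¬ ∀ v', P b v' → v' = v) → False := by
    intro a b c ha hb hc hab hac hbc qab qac qbc oa ob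
    push Not at oa ob
    obtain ⟨x, hx, hxv⟩ := oa
    obtain ⟨y, hy, hyv⟩ := ob
    have e := h.par ha hb hab qab hx hxv hy hyv
    have ex : x = a + (x - a) := by ring
    have ey : y = b + (x - a) := by linear_combination -e
    refine h.two_two ha hb hc hab hac hbc qab qac qbc (n := x - a) (ex ▸ hx) (ex ▸ hxv) (ey ▸ hy)
      (ey ▸ hyv)
  by_cases o1 : ∀ v', P c₁ v' → v' = v
  · by_cases o2 : ∀ v', P c₂ v' → v' = v
    · exact h.oneP h1 h2 h3 h12 h13 h23 q12 q13 q23 o1 o2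
    · by_cases o3 : ∀ v', P c₃ v' → v' = v
      · exact h.oneP h1 h3 h2 h13 h12 h23.symm q13 q12 q32 o1 o3
      · exact key h2 h3 h1 h23 h12.symm h13.symm q23 q21 q31 o2 o3
  · by_cases o2 : ∀ v', P c₂ v' → v' = v
    · by_cases o3 : ∀ v', P c₃ v' → v' = v
      · exact h.oneP h2 h3 h1 h23 h12.symm h13.symm q23 q21 q31 o2 o3
      · exact key h1 h3 h2 h13 h12 h23.symm q13 q12 q32 o1 o3
    · exact key h1 h2 h3 h12 h13 h23 q12 q13 q23 o1 o2

/-- the other common centre of an edge -/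
theorem WebO.other (h : WebO P Q) {z v q : ℂ} (hv : P z v) (hq : Q z q) :
    P (v + q - z) v ∧ Q (v + q - z) q ∧ z ≠ v + q - z := by
  obtain ⟨a, b, c⟩ := h.rh hv hq
  refine ⟨b, c, fun hc => a ?_⟩
  linear_combination -hc

/-- **a `Q`-vertex has at most two neighbours**: if `q` is the end of `z`, `w₁ = v₁ + q - z`,
`w₂ = v₂ + q - z`, then the only `P`-end of `w₁` is `v₁`. -/
theorem WebO.only (h : WebO P Q) {z v₁ v₂ q : ℂ} (h1 : P z v₁) (h2 : P z v₂) (h12 : v₁ ≠ v₂)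
    (hq : Q z q) {x : ℂ} (hx : P (v₁ + q - z) x) : x = v₁ := by
  by_contra hne
  obtain ⟨a1, a2, a3⟩ := h.other h1 hq
  obtain ⟨b1, b2, b3⟩ := h.other h2 hq
  obtain ⟨c1, c2, c3⟩ := h.rh hx a2
  have hww : v₁ + q - z ≠ v₂ + q - z := by
    intro hc; apply h12; linear_combination hc
  rcases h.threeQ hq a2 b2 c3 a3 b3 hww with hc | hc | hc
  · exact hne (by linear_combination hc)
  · exact c1 (by linear_combination hc)
  · rw [hc] at c2
    refine h.swap.d3 (v := q) (c₁ := z) (c₂ := v₁ + q - z) (c₃ := v₂ + q - z) hq a2 b2 a3 b3 hww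
      ?_ ?_ ?_
    · have e : z + (v₁ + q - z) - q = v₁ := by ring
      rw [e]; exact h1
    · have e : z + (v₂ + q - z) - q = v₂ := by ring
      rw [e]; exact h2
    · have e : v₁ + q - z + (v₂ + q - z) - q = x := by linear_combination -hc
      rw [e]; exact hx

/-- a centre with a `Q`-end has at most two `P`-ends -/
theorem WebO.le_two (h : WebO P Q) {z v₁ v₂ v₃ q : ℂ} (h1 : P z v₁) (h2 : P z v₂) (h12 : v₁ ≠ v₂)
    (hq : Q z q) (h3 : P z v₃) : v₃ = v₁ ∨ v₃ = v₂ := by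
  obtain ⟨a1, a2, a3⟩ := h.other h1 hq
  obtain ⟨b1, b2, b3⟩ := h.other h2 hq
  obtain ⟨c1, c2, c3⟩ := h.other h3 hq
  have hww : v₁ + q - z ≠ v₂ + q - z := by
    intro hc; apply h12; linear_combination hc
  rcases h.threeQ hq a2 b2 c2 a3 b3 hww with hc | hc | hc
  · exact absurd hc.symm c3
  · left; linear_combination hc
  · right; linear_combination hc

/-- **no (2,2) centre** -/
theorem WebO.no22 (h : WebO P Q) {z v₁ v₂ q₁ q₂ : ℂ} (h1 : P z v₁) (h2 : P z v₂) (h12 : v₁ ≠ v₂)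
    (k1 : Q z q₁) (k2 : Q z q₂) (k12 : q₁ ≠ q₂) : False := by
  obtain ⟨a1, a2, a3⟩ := h.other h1 k1
  refine h.L2 a1 a2 (fun x hx => h.only h1 h2 h12 k1 hx) fun s hs => ?_
  rw [add_comm v₁ q₁] at hs
  exact h.swap.only k1 k2 k12 h1 hs

end Vale.Agent.P032.Net
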